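import Mathlib

/-!
# Seymour's second neighbourhood conjecture: the combinatorial core

A digraph is given by its closed out-neighbourhoods `N : V → Finset V`.
-/

namespace Vale.Agent.P038.H422

open Finset

set_option linter.unusedSectionVars false

variable {V : Type*} [Fintype V] [DecidableEq V]

/-- closed out-neighbourhood of a set -/
def NS (N : V → Finset V) (S : Finset V) : Finset V := S.biUnion N

/-- closed in-neighbourhood -/
def nbi (N : V → Finset V) (z : V) : Finset V := univ.filter fun a => z ∈ N a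

/-- `|N[S]| - |S|` -/
def hh (N : V → Finset V) (S : Finset V) : ℤ := ((NS N S).card : ℤ) - S.card

theorem mem_NS {N : V → Finset V} {S : Finset V} {z : V} : z ∈ NS N S ↔ ∃ a ∈ S, z ∈ N a := by
  simp [NS]

theorem mem_nbi {N : V → Finset V} {a z : V} : a ∈ nbi N z ↔ z ∈ N a := by
  simp [nbi]

theorem NS_mono {N : V → Finset V} {S T : Finset V} (h : S ⊆ T) : NS N S ⊆ NS N T := by
  intro z hz
  rw [mem_NS] at hz ⊢
  obtain ⟨a, ha, hz⟩ := hz
  exact ⟨a, h ha, hz⟩

theorem NS_union {N : V → Finset V} {S T : Finset V} : NS N (S ∪ T) = NS N S ∪ NS N T := by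
  ext z
  simp only [mem_NS, mem_union]
  constructor
  · rintro ⟨a, ha | ha, hz⟩
    · exact Or.inl ⟨a, ha, hz⟩
    · exact Or.inr ⟨a, ha, hz⟩
  · rintro (⟨a, ha, hz⟩ | ⟨a, ha, hz⟩)
    · exact ⟨a, Or.inl ha, hz⟩
    · exact ⟨a, Or.inr ha, hz⟩

theorem hh_submod (N : V → Finset V) (S T : Finset V) :
    hh N (S ∪ T) + hh N (S ∩ T) ≤ hh N S + hh N T := by
  have h1 : ((NS N (S ∪ T)).card : ℤ) + (NS N (S ∩ T)).card ≤ (NS N S).card + (NS N T).card := by
    have h2 : NS N (S ∩ T) ⊆ NS N S ∩ NS N T :=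
      subset_inter (NS_mono inter_subset_left) (NS_mono inter_subset_right)
    have h3 := card_le_card h2
    have h4 := card_union_add_card_inter (NS N S) (NS N T)
    rw [NS_union]
    omega
  have h5 := card_union_add_card_inter S T
  unfold hh
  omega

/-- minimum of `hh` over the interval `[P ∪ (T ∩ Q), Q]` -/
noncomputable def kk (N : V → Finset V) (P Q T : Finset V) : ℤ :=
  if h : ((univ : Finset (Finset V)).filter fun Y => P ∪ (T ∩ Q) ⊆ Y ∧ Y ⊆ Q).Nonempty then
    ((univ : Finset (Finset V)).filter fun Y => P ∪ (T ∩ Q) ⊆ Y ∧ Y ⊆ Q).inf' h (hh N) else 0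

theorem kk_le {N : V → Finset V} {P Q T Y : Finset V} (h1 : P ∪ (T ∩ Q) ⊆ Y) (h2 : Y ⊆ Q) :
    kk N P Q T ≤ hh N Y := by
  have hm : Y ∈ (univ : Finset (Finset V)).filter fun Y => P ∪ (T ∩ Q) ⊆ Y ∧ Y ⊆ Q := by
    simp [h1, h2]
  unfold kk
  rw [dif_pos ⟨Y, hm⟩]
  exact inf'_le _ hm

theorem kk_exists {N : V → Finset V} {P Q : Finset V} (T : Finset V) (hPQ : P ⊆ Q) :
    ∃ Y, P ∪ (T ∩ Q) ⊆ Y ∧ Y ⊆ Q ∧ kk N P Q T = hh N Y := by
  have hne : ((univ : Finset (Finset V)).filter fun Y => P ∪ (T ∩ Q) ⊆ Y ∧ Y ⊆ Q).Nonempty := by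
    refine ⟨Q, ?_⟩
    simp only [mem_filter, mem_univ, true_and]
    exact ⟨union_subset hPQ inter_subset_right, Subset.refl _⟩
  obtain ⟨Y, hY, hY2⟩ := exists_mem_eq_inf' hne (hh N)
  simp only [mem_filter, mem_univ, true_and] at hY
  refine ⟨Y, hY.1, hY.2, ?_⟩
  unfold kk
  rw [dif_pos hne]
  exact hY2

theorem kk_mono {N : V → Finset V} {P Q T T' : Finset V} (hPQ : P ⊆ Q) (hT : T ⊆ T') :
    kk N P Q T ≤ kk N P Q T' := by
  obtain ⟨Y, h1, h2, h3⟩ := kk_exists (N := N) T' hPQ
  rw [h3]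
  exact kk_le ((union_subset_union_right (inter_subset_inter_right hT)).trans h1) h2

theorem kk_univ {N : V → Finset V} {P Q : Finset V} (hPQ : P ⊆ Q) : kk N P Q univ = hh N Q := by
  obtain ⟨Y, h1, h2, h3⟩ := kk_exists (N := N) univ hPQ
  have : Y = Q := by
    apply Subset.antisymm h2
    intro x hx
    apply h1
    simp [hx]
  rw [h3, this]

theorem kk_empty {N : V → Finset V} {P Q : Finset V} (hPQ : P ⊆ Q)
    (hmin : ∀ Y, P ⊆ Y → Y ⊆ Q → hh N P ≤ hh N Y) : kk N P Q ∅ = hh N P := by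
  obtain ⟨Y, h1, h2, h3⟩ := kk_exists (N := N) ∅ hPQ
  apply le_antisymm
  · apply kk_le
    · simp
    · exact hPQ
  · rw [h3]
    apply hmin Y _ h2
    exact subset_union_left.trans h1

theorem kk_insert_eq {N : V → Finset V} {P Q T : Finset V} {b : V} (hb : b ∈ P ∨ b ∉ Q) :
    kk N P Q (insert b T) = kk N P Q T := by
  have : P ∪ (insert b T ∩ Q) = P ∪ (T ∩ Q) := by
    ext x
    simp only [mem_union, mem_inter, mem_insert]
    constructor
    · rintro (h | ⟨rfl | h, h'⟩)
      · exact Or.inl h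
      · rcases hb with hb | hb
        · exact Or.inl hb
        · exact absurd h' hb
      · exact Or.inr ⟨h, h'⟩
    · rintro (h | ⟨h, h'⟩)
      · exact Or.inl h
      · exact Or.inr ⟨Or.inr h, h'⟩
  unfold kk
  rw [this]

theorem kk_compare {N : V → Finset V} {P Q P' Q' T : Finset V} {b : V}
    (hPQ : P ⊆ Q) (hPQ' : P' ⊆ Q') (hP : P' ⊆ P) (hQ : Q' ⊆ Q) (hb : b ∈ Q') :
    kk N P Q (insert b T) - kk N P Q T ≤ kk N P' Q' (insert b T) - kk N P' Q' T := by
  obtain ⟨Y, h1, h2, h3⟩ := kk_exists (N := N) (insert b T) hPQ'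
  obtain ⟨Y', h1', h2', h3'⟩ := kk_exists (N := N) T hPQ
  have hbY : b ∈ Y := h1 (by simp [hb])
  have e1 : kk N P Q (insert b T) ≤ hh N (Y ∪ Y') := by
    apply kk_le
    · intro x hx
      simp only [mem_union, mem_inter, mem_insert] at hx ⊢
      rcases hx with hx | ⟨rfl | hx, hx'⟩
      · exact Or.inr (h1' (by simp [hx]))
      · exact Or.inl hbY
      · exact Or.inr (h1' (by simp [hx, hx']))
    · exact union_subset (h2.trans hQ) h2'
  have e2 : kk N P' Q' T ≤ hh N (Y ∩ Y') := by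
    apply kk_le
    · intro x hx
      simp only [mem_union, mem_inter] at hx ⊢
      rcases hx with hx | ⟨hx, hx'⟩
      · exact ⟨h1 (by simp [hx]), h1' (by simp [hP hx])⟩
      · exact ⟨h1 (by simp [hx, hx']), h1' (by simp [hx, hQ hx'])⟩
    · exact inter_subset_left.trans h2
  have e3 := hh_submod N Y Y'
  omega

/-- layer cake -/
theorem layer {α : Type*} [Fintype α] (f : α → ℤ) (g : α → ℤ)
    (hf : ∀ a, 0 ≤ f a) (hg : ∀ b, 0 ≤ g b)
    (h : ∀ t : ℤ, 0 ≤ t → (univ.filter fun a => t < f a).card ≤ (univ.filter fun b => t < g b).card) :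
    ∑ a, f a ≤ ∑ b, g b := by
  classical
  obtain ⟨K, hK1, hK2⟩ : ∃ K : ℕ, (∀ a, (f a) ≤ K) ∧ (∀ b, (g b) ≤ K) := by
    refine ⟨(∑ a, (f a).toNat) + ∑ b, (g b).toNat, ?_, ?_⟩
    · intro a
      have h1 : (f a).toNat ≤ ∑ a, (f a).toNat :=
        single_le_sum (f := fun a => (f a).toNat) (fun _ _ => Nat.zero_le _) (mem_univ a)
      have := Int.toNat_of_nonneg (hf a)
      omega
    · intro b
      have h1 : (g b).toNat ≤ ∑ b, (g b).toNat :=
        single_le_sum (f := fun b => (g b).toNat) (fun _ _ => Nat.zero_le _) (mem_univ b)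
      have := Int.toNat_of_nonneg (hg b)
      omega
  have key : ∀ (u : α → ℤ), (∀ c, 0 ≤ u c) → (∀ c, u c ≤ K) →
      ∑ c, u c = ∑ t ∈ range K, ((univ.filter fun c => (t : ℤ) < u c).card : ℤ) := by
    intro u hu0 huK
    have h1 : ∀ c, u c = ∑ t ∈ range K, (if (t : ℤ) < u c then (1 : ℤ) else 0) := by
      intro c
      rw [← sum_filter, sum_const]
      have h2 : (range K).filter (fun t : ℕ => (t : ℤ) < u c) = range (u c).toNat := by
        ext t
        simp only [mem_filter, mem_range]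
        have := hu0 c
        have := huK c
        omega
      rw [h2, card_range]
      simp [hu0 c]
    calc ∑ c, u c = ∑ c, ∑ t ∈ range K, (if (t : ℤ) < u c then (1 : ℤ) else 0) :=
          sum_congr rfl fun c _ => h1 c
      _ = ∑ t ∈ range K, ∑ c, (if (t : ℤ) < u c then (1 : ℤ) else 0) := sum_comm
      _ = _ := by
          refine sum_congr rfl fun t _ => ?_
          rw [← sum_filter, sum_const]
          simp
  rw [key f hf hK1, key g hg hK2]
  refine sum_le_sum fun t _ => ?_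
  exact_mod_cast h t (by positivity)

/-- telescoping over an enumeration -/
theorem telescope (φ : Finset V → ℤ) (T : ℕ → Finset V) (σ : V ≃ Fin (Fintype.card V))
    (h0 : T 0 = ∅) (hn : T (Fintype.card V) = univ) :
    ∑ b : V, (φ (T ((σ b : ℕ) + 1)) - φ (T (σ b : ℕ))) = φ univ - φ ∅ := by
  have e1 : ∑ b : V, (φ (T ((σ b : ℕ) + 1)) - φ (T (σ b : ℕ)))
      = ∑ i : Fin (Fintype.card V), (φ (T ((i : ℕ) + 1)) - φ (T (i : ℕ))) :=
    Equiv.sum_comp σ (fun i : Fin (Fintype.card V) => (φ (T ((i : ℕ) + 1)) - φ (T (i : ℕ))))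
  rw [e1, Fin.sum_univ_eq_sum_range (fun i => φ (T (i + 1)) - φ (T i)), sum_range_sub (fun i => φ (T i))]
  rw [hn, h0]

/-- The row inequality (second-neighbourhood exchange). -/
theorem star (N : V → Finset V) (B U : V → Finset V) (hBU : ∀ a, B a ⊆ U a)
    (hR : ∀ a Y, B a ⊆ Y → Y ⊆ U a → hh N (B a) ≤ hh N Y)
    (m M : V → Finset V)
    (hm : ∀ z x, x ∈ m z ↔ ∀ a, z ∈ N a → x ∈ B a)
    (hM : ∀ z x, x ∈ M z ↔ ∀ a, z ∈ N a → x ∈ U a)
    (hC : ∀ b (S : Finset V), (∀ a ∈ S, b ∈ U a ∧ b ∉ B a) →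
      S.card ≤ (univ.filter fun z => b ∈ M z ∧ ∃ a ∈ S, z ∈ N a).card) :
    ∑ a, (hh N (U a) - hh N (B a)) ≤ ∑ z, (hh N (M z) - hh N (m z)) := by
  classical
  have hmM : ∀ z, m z ⊆ M z := by
    intro z x hx
    rw [hm] at hx
    rw [hM]
    exact fun a ha => hBU a (hx a ha)
  have hmB : ∀ z a, z ∈ N a → m z ⊆ B a := fun z a ha x hx => (hm z x).1 hx a ha
  have hMU : ∀ z a, z ∈ N a → M z ⊆ U a := fun z a ha x hx => (hM z x).1 hx a ha
  -- intersections stay optimal
  have hmin : ∀ z Y, m z ⊆ Y → Y ⊆ M z → hh N (m z) ≤ hh N Y := by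
    intro z Y h1 h2
    have key : ∀ s : Finset V, (∀ a ∈ s, z ∈ N a) →
        hh N (Y.filter fun x => ∀ a ∈ s, x ∈ B a) ≤ hh N Y := by
      intro s
      induction s using Finset.induction_on with
      | empty => intro _; simp
      | insert c s hc ih =>
        intro hs
        have hs' : ∀ a ∈ s, z ∈ N a := fun a ha => hs a (mem_insert_of_mem ha)
        have hcz : z ∈ N c := hs c (mem_insert_self _ _)
        have e := ih hs'
        set Y' := Y.filter fun x => ∀ a ∈ s, x ∈ B a with hY'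
        have e1 : (Y.filter fun x => ∀ a ∈ insert c s, x ∈ B a) = Y' ∩ B c := by
          ext x
          simp only [hY', mem_filter, mem_inter, mem_insert, forall_eq_or_imp]
          tauto
        rw [e1]
        have e2 := hh_submod N Y' (B c)
        have e3 := hR c (Y' ∪ B c) subset_union_right
          (union_subset (((filter_subset _ _).trans h2).trans (hMU z c hcz)) (hBU c))
        omega
    have e := key (nbi N z) (fun a ha => mem_nbi.1 ha)
    have e1 : (Y.filter fun x => ∀ a ∈ nbi N z, x ∈ B a) = m z := by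
      ext x
      simp only [mem_filter, mem_nbi, ← hm]
      exact ⟨fun h => h.2, fun h => ⟨h1 h, h⟩⟩
    rw [e1] at e
    exact e
  let σ : V ≃ Fin (Fintype.card V) := Fintype.equivFin V
  let T : ℕ → Finset V := fun i => univ.filter fun b => (σ b : ℕ) < i
  have hT0 : T 0 = ∅ := by
    simp [T]
  have hTn : T (Fintype.card V) = univ := by
    ext b
    simp [T]
  have hTs : ∀ b, T ((σ b : ℕ) + 1) = insert b (T (σ b : ℕ)) := by
    intro b
    ext c
    simp only [T, mem_filter, mem_univ, true_and, mem_insert]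
    constructor
    · intro h
      rcases Nat.lt_succ_iff_lt_or_eq.1 h with h | h
      · exact Or.inr h
      · left
        exact σ.injective (Fin.ext h)
    · rintro (rfl | h)
      · exact Nat.lt_succ_self _
      · exact Nat.lt_succ_of_lt h
  let al : V → V → ℤ := fun a b => kk N (B a) (U a) (insert b (T (σ b : ℕ))) - kk N (B a) (U a) (T (σ b : ℕ))
  let ga : V → V → ℤ := fun z b => kk N (m z) (M z) (insert b (T (σ b : ℕ))) - kk N (m z) (M z) (T (σ b : ℕ))
  have hal : ∀ a, ∑ b, al a b = hh N (U a) - hh N (B a) := by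
    intro a
    have := telescope (kk N (B a) (U a)) T σ hT0 hTn
    simp only [hTs] at this
    rw [kk_univ (hBU a), kk_empty (hBU a) (hR a)] at this
    exact this
  have hga : ∀ z, ∑ b, ga z b = hh N (M z) - hh N (m z) := by
    intro z
    have := telescope (kk N (m z) (M z)) T σ hT0 hTn
    simp only [hTs] at this
    rw [kk_univ (hmM z), kk_empty (hmM z) (hmin z)] at this
    exact this
  have hal0 : ∀ a b, 0 ≤ al a b := by
    intro a b
    have := kk_mono (N := N) (hBU a) (subset_insert b (T (σ b : ℕ)))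
    simp only [al]
    omega
  have hga0 : ∀ a b, 0 ≤ ga a b := by
    intro a b
    have := kk_mono (N := N) (hmM a) (subset_insert b (T (σ b : ℕ)))
    simp only [ga]
    omega
  have hcol : ∀ b, ∑ a, al a b ≤ ∑ z, ga z b := by
    intro b
    apply layer (fun a => al a b) (fun z => ga z b) (fun a => hal0 a b) (fun z => hga0 z b)
    intro t ht
    refine (hC b (univ.filter fun a => t < al a b) ?_).trans ?_
    · intro a ha
      simp only [mem_filter, mem_univ, true_and] at ha
      by_contra hcon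
      have h0 : b ∈ B a ∨ b ∉ U a := by tauto
      have := kk_insert_eq (N := N) (T := T (σ b : ℕ)) h0
      simp only [al, this, sub_self] at ha
      omega
    · apply card_le_card
      intro z hz
      simp only [mem_filter, mem_univ, true_and] at hz ⊢
      obtain ⟨hbM, a, ha, hza⟩ := hz
      have := kk_compare (N := N) (T := T (σ b : ℕ)) (hBU a) (hmM z) (hmB z a hza) (hMU z a hza) hbM
      simp only [al] at ha
      simp only [ga]
      omega
  calc ∑ a, (hh N (U a) - hh N (B a)) = ∑ a, ∑ b, al a b := sum_congr rfl fun a _ => (hal a).symm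
    _ = ∑ b, ∑ a, al a b := sum_comm
    _ ≤ ∑ b, ∑ z, ga z b := sum_le_sum fun b _ => hcol b
    _ = ∑ z, ∑ b, ga z b := sum_comm
    _ = _ := sum_congr rfl fun z _ => hga z

end Vale.Agent.P038.H422
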