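import Mathlib
import Vale.Agent.P038.H422.Core

/-!
# Seymour's second neighbourhood conjecture: minimal counterexamples and the contradiction
-/

namespace Vale.Agent.P038.H422

open Finset

set_option linter.unusedSectionVars false

variable {V : Type*} [Fintype V] [DecidableEq V]

/-- An oriented graph given by closed out-neighbourhoods. -/
structure IsOr (N : V → Finset V) : Prop where
  refl : ∀ v, v ∈ N v
  anti : ∀ a b, b ∈ N a → a ∈ N b → a = b

/-- Counterexample to the second neighbourhood conjecture. -/
structure IsCE (N : V → Finset V) : Prop extends IsOr N where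
  ce : ∀ v, (NS N (N v)).card + 1 < 2 * (N v).card

theorem subset_NS {N : V → Finset V} (h : ∀ v, v ∈ N v) (S : Finset V) : S ⊆ NS N S :=
  fun x hx => mem_NS.2 ⟨x, hx, h x⟩

/-- The key property of a counterexample with the fewest arcs. -/
theorem strictG (N : V → Finset V) (hN : IsCE N)
    (hmin : ∀ N' : V → Finset V, IsCE N' → ∑ v, (N v).card ≤ ∑ v, (N' v).card)
    (X : Finset V) (hX : NS N X ≠ X) : hh N (NS N X) < hh N X := by
  classical
  set L := NS N X \ X with hL
  let d : Finset V → ℤ := fun T => ((NS N T \ X).card : ℤ) - 2 * T.card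
  have hXX : X ⊆ NS N X := subset_NS hN.refl X
  -- it suffices to show `d L < 0`
  have hred : d L < d ∅ → hh N (NS N X) < hh N X := by
    intro h
    have e1 : NS N (NS N X) \ X = NS N L \ X := by
      have : NS N X = X ∪ L := by
        rw [hL, union_sdiff_of_subset hXX]
      have e : NS N (NS N X) = NS N X ∪ NS N L := by
        conv_lhs => rw [this]
        rw [NS_union]
      rw [e]
      ext x
      simp only [mem_sdiff, mem_union]
      constructor
      · rintro ⟨h1 | h1, h2⟩
        · refine ⟨subset_NS hN.refl L ?_, h2⟩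
          rw [hL]
          simp [h1, h2]
        · exact ⟨h1, h2⟩
      · rintro ⟨h1, h2⟩
        exact ⟨Or.inr h1, h2⟩
    have hX2 : X ⊆ NS N (NS N X) := hXX.trans (subset_NS hN.refl _)
    have e2 : (NS N L \ X).card = (NS N (NS N X)).card - X.card := by
      rw [← e1, card_sdiff_of_subset hX2]
    have e3 : L.card = (NS N X).card - X.card := by
      rw [hL, card_sdiff_of_subset hXX]
    have e4 := card_le_card hX2
    have e5 := card_le_card hXX
    simp only [d] at h
    have e6 : NS N (∅ : Finset V) = ∅ := by
      ext x; simp [mem_NS]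
    rw [e6] at h
    simp only [empty_sdiff, card_empty] at h
    unfold hh
    omega
  by_contra hcon
  have hdL : ¬ d L < d ∅ := fun h => hcon (hred h)
  -- a minimiser `T ≠ L` of `d` on the subsets of `L`
  have hLne : L ≠ ∅ := by
    intro h
    apply hX
    rw [hL, sdiff_eq_empty_iff_subset] at h
    exact Subset.antisymm h hXX
  obtain ⟨T, hTL, hTne, hTmin⟩ : ∃ T, T ⊆ L ∧ T ≠ L ∧ ∀ T', T' ⊆ L → d T ≤ d T' := by
    have hne : (L.powerset.erase L).Nonempty := ⟨∅, by simp [Ne.symm hLne]⟩
    obtain ⟨T, hT, hTm⟩ := exists_min_image (L.powerset.erase L) d hne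
    rw [mem_erase, mem_powerset] at hT
    refine ⟨T, hT.2, hT.1, ?_⟩
    intro T' hT'
    by_cases h : T' = L
    · have h1 := hTm ∅ (by simp [Ne.symm hLne])
      rw [h]
      omega
    · exact hTm T' (by rw [mem_erase, mem_powerset]; exact ⟨h, hT'⟩)
  have hone : ∀ D' : Finset V, D' ⊆ L → Disjoint T D' →
      2 * D'.card ≤ (NS N D' \ (NS N T ∪ X)).card := by
    intro D' h1 h2
    have h3 := hTmin (T ∪ D') (union_subset hTL h1)
    have h4 : (T ∪ D').card = T.card + D'.card := card_union_of_disjoint h2
    have h5 : (NS N (T ∪ D') \ X).card = (NS N T \ X).card + (NS N D' \ (NS N T ∪ X)).card := by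
      rw [← card_union_of_disjoint]
      · congr 1
        rw [NS_union]
        ext x
        simp only [mem_sdiff, mem_union]
        tauto
      · rw [disjoint_left]
        intro x hx hx'
        simp only [mem_sdiff, mem_union] at hx hx'
        tauto
    simp only [d] at h3
    rw [h4, h5] at h3
    push_cast at h3
    omega
  -- the smaller counterexample
  let N' : V → Finset V := fun v => if v ∈ X then N v ∩ (X ∪ T) else N v
  have hN'sub : ∀ v, N' v ⊆ N v := by
    intro v
    simp only [N']
    split_ifs
    · exact inter_subset_left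
    · exact Subset.refl _
  have hCE : IsCE N' := by
    refine ⟨⟨?_, ?_⟩, ?_⟩
    · intro v
      simp only [N']
      split_ifs with h
      · simp [hN.refl v, h]
      · exact hN.refl v
    · intro a b h1 h2
      exact hN.anti a b (hN'sub _ h1) (hN'sub _ h2)
    · intro v
      have hsub : ∀ S, NS N' S ⊆ NS N S := by
        intro S x hx
        rw [mem_NS] at hx ⊢
        obtain ⟨a, ha, hx⟩ := hx
        exact ⟨a, ha, hN'sub a hx⟩
      by_cases hv : v ∈ X
      · have e1 : N' v = N v ∩ (X ∪ T) := by simp [N', hv]
        set Dy := N v \ (X ∪ T) with hDy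
        have e2 : (N' v).card + Dy.card = (N v).card := by
          rw [e1, hDy, add_comm]
          exact card_sdiff_add_card_inter _ _
        have e3 := hone Dy (by
          intro x hx
          simp only [hDy, mem_sdiff, mem_union, not_or] at hx
          rw [hL, mem_sdiff]
          exact ⟨mem_NS.2 ⟨v, hv, hx.1⟩, hx.2.1⟩) (by
          rw [disjoint_left]
          intro x hx hx'
          simp only [hDy, mem_sdiff, mem_union, not_or] at hx'
          exact hx'.2.2 hx)
        have e4 : Disjoint (NS N' (N' v)) (NS N Dy \ (NS N T ∪ X)) := by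
          rw [disjoint_left]
          intro z hz hz'
          simp only [mem_sdiff, mem_union, not_or] at hz'
          rw [mem_NS] at hz
          obtain ⟨c, hc, hz⟩ := hz
          rw [e1] at hc
          simp only [mem_inter, mem_union] at hc
          rcases hc.2 with hcX | hcT
          · have : z ∈ N c ∩ (X ∪ T) := by simpa [N', hcX] using hz
            simp only [mem_inter, mem_union] at this
            rcases this.2 with h | h
            · exact hz'.2.2 h
            · exact hz'.2.1 (subset_NS hN.refl T h)
          · exact hz'.2.1 (mem_NS.2 ⟨c, hcT, hN'sub c hz⟩)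
        have e5 : NS N' (N' v) ∪ (NS N Dy \ (NS N T ∪ X)) ⊆ NS N (N v) := by
          apply union_subset
          · exact (hsub _).trans (NS_mono (hN'sub v))
          · exact sdiff_subset.trans (NS_mono sdiff_subset)
        have e6 := card_le_card e5
        rw [card_union_of_disjoint e4] at e6
        have e7 := hN.ce v
        omega
      · have e1 : N' v = N v := by simp [N', hv]
        rw [e1]
        have e2 := card_le_card (hsub (N v))
        have e3 := hN.ce v
        omega
  have hlt : ∑ v, (N' v).card < ∑ v, (N v).card := by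
    apply sum_lt_sum
    · intro v _
      exact card_le_card (hN'sub v)
    · have : ∃ z, z ∈ L ∧ z ∉ T := by
        by_contra h
        push Not at h
        exact hTne (Subset.antisymm hTL h)
      obtain ⟨z, hzL, hzT⟩ := this
      rw [hL, mem_sdiff, mem_NS] at hzL
      obtain ⟨⟨y, hy, hzy⟩, hzX⟩ := hzL
      refine ⟨y, mem_univ _, ?_⟩
      apply card_lt_card
      rw [ssubset_iff_of_subset (hN'sub y)]
      refine ⟨z, hzy, ?_⟩
      simp [N', hy, hzX, hzT]
  have := hmin N' hCE
  omega

/-- Outer feasible pairs. -/
structure Feas (N : V → Finset V) (B C : V → Finset V) : Prop where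
  hB : ∀ a, N a ⊆ B a
  hC : ∀ b, N b ⊆ C b
  hBC : ∀ a b, b ∈ B a → a ∈ C b → a = b

/-- The cost of a pair. -/
def EE (N : V → Finset V) (B C : V → Finset V) : ℤ := ∑ a, hh N (B a) + ∑ b, hh N (C b)

/-- intersection over the closed in-neighbourhood -/
def mm (N B : V → Finset V) (z : V) : Finset V := univ.filter fun x => ∀ a, z ∈ N a → x ∈ B a

theorem mem_mm {N B : V → Finset V} {z x : V} : x ∈ mm N B z ↔ ∀ a, z ∈ N a → x ∈ B a := by
  simp [mm]

/-- the complement family -/
def UU (C : V → Finset V) (a : V) : Finset V := univ.filter fun b => b = a ∨ a ∉ C b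

theorem mem_UU {C : V → Finset V} {a b : V} : b ∈ UU C a ↔ b = a ∨ a ∉ C b := by
  simp [UU]

/-- number of pairs in a relation, by rows and by columns -/
theorem sum_card_eq_filter (F : V → Finset V) :
    ∑ a, ((F a).card : ℤ) = ((univ.filter fun p : V × V => p.2 ∈ F p.1).card : ℤ) := by
  classical
  have h : (univ.filter fun p : V × V => p.2 ∈ F p.1).card = ∑ a, (F a).card := by
    rw [card_filter, Fintype.sum_prod_type]
    refine sum_congr rfl fun a _ => ?_
    simp
  rw [h]
  push_cast
  rfl

theorem main (N : V → Finset V) (hN : IsOr N) (B C : V → Finset V) (hF : Feas N B C)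
    (hopt : ∀ B' C', Feas N B' C' → EE N B C ≤ EE N B' C') :
    ∑ a, hh N (mm N B a) + ∑ b, hh N (mm N C b) ≤ EE N B C := by
  classical
  have hBU : ∀ a, B a ⊆ UU C a := by
    intro a b hb
    rw [mem_UU]
    by_cases h : a ∈ C b
    · exact Or.inl (hF.hBC a b hb h).symm
    · exact Or.inr h
  have hR : ∀ a Y, B a ⊆ Y → Y ⊆ UU C a → hh N (B a) ≤ hh N Y := by
    intro a Y h1 h2
    have hfe : Feas N (Function.update B a Y) C := by
      refine ⟨?_, hF.hC, ?_⟩
      · intro c
        by_cases hc : c = a
        · subst hc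
          simp only [Function.update_self]
          exact (hF.hB c).trans h1
        · rw [Function.update_of_ne hc]
          exact hF.hB c
      · intro c b hb hcb
        by_cases hc : c = a
        · subst hc
          simp only [Function.update_self] at hb
          have := mem_UU.1 (h2 hb)
          rcases this with h | h
          · exact h.symm
          · exact absurd hcb h
        · rw [Function.update_of_ne hc] at hb
          exact hF.hBC c b hb hcb
    have h3 := hopt _ _ hfe
    unfold EE at h3
    have h4 : ∑ c, hh N (Function.update B a Y c) = hh N Y + ∑ c ∈ univ.erase a, hh N (B c) := by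
      rw [← add_sum_erase univ _ (mem_univ a)]
      congr 1
      · simp
      · refine sum_congr rfl fun c hc => ?_
        rw [Function.update_of_ne (ne_of_mem_erase hc)]
    have h5 : ∑ c, hh N (B c) = hh N (B a) + ∑ c ∈ univ.erase a, hh N (B c) :=
      (add_sum_erase univ (fun c => hh N (B c)) (mem_univ a)).symm
    rw [h4, h5] at h3
    omega
  have hCol : ∀ b (S : Finset V), (∀ a ∈ S, b ∈ UU C a ∧ b ∉ B a) →
      S.card ≤ (univ.filter fun z => b ∈ mm N (UU C) z ∧ ∃ a ∈ S, z ∈ N a).card := by
    intro b S hS
    have hfe : Feas N B (Function.update C b (C b ∪ S)) := by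
      refine ⟨hF.hB, ?_, ?_⟩
      · intro c
        by_cases hc : c = b
        · subst hc
          simp only [Function.update_self]
          exact (hF.hC c).trans subset_union_left
        · rw [Function.update_of_ne hc]
          exact hF.hC c
      · intro a c hc hac
        by_cases hcb : c = b
        · subst hcb
          simp only [Function.update_self, mem_union] at hac
          rcases hac with h | h
          · exact hF.hBC a c hc h
          · exact absurd hc (hS a h).2
        · rw [Function.update_of_ne hcb] at hac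
          exact hF.hBC a c hc hac
    have h3 := hopt _ _ hfe
    unfold EE at h3
    have h4 : ∑ c, hh N (Function.update C b (C b ∪ S) c)
        = hh N (C b ∪ S) + ∑ c ∈ univ.erase b, hh N (C c) := by
      rw [← add_sum_erase univ _ (mem_univ b)]
      congr 1
      · simp
      · refine sum_congr rfl fun c hc => ?_
        rw [Function.update_of_ne (ne_of_mem_erase hc)]
    have h5 : ∑ c, hh N (C c) = hh N (C b) + ∑ c ∈ univ.erase b, hh N (C c) :=
      (add_sum_erase univ (fun c => hh N (C c)) (mem_univ b)).symm
    rw [h4, h5] at h3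
    have hdisj : Disjoint (C b) S := by
      rw [disjoint_left]
      intro a ha haS
      obtain ⟨h6, h7⟩ := hS a haS
      rcases mem_UU.1 h6 with h | h
      · subst h
        exact h7 (hF.hB b (hN.refl b))
      · exact h ha
    have h6 : (C b ∪ S).card = (C b).card + S.card := card_union_of_disjoint hdisj
    have h7 : (NS N (C b ∪ S)).card = (NS N (C b)).card + (NS N S \ NS N (C b)).card := by
      rw [NS_union, ← card_union_of_disjoint disjoint_sdiff, union_sdiff_self_eq_union]
    have h8 : (NS N S \ NS N (C b)).card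
        ≤ (univ.filter fun z => b ∈ mm N (UU C) z ∧ ∃ a ∈ S, z ∈ N a).card := by
      apply card_le_card
      intro z hz
      simp only [mem_sdiff, mem_NS] at hz
      simp only [mem_filter, mem_univ, true_and, mem_mm]
      refine ⟨?_, hz.1⟩
      intro a ha
      rw [mem_UU]
      right
      intro hab
      exact hz.2 ⟨a, hab, ha⟩
    unfold hh at h3
    rw [h6, h7] at h3
    push_cast at h3
    omega
  have hstar := star N B (UU C) hBU hR (mm N B) (mm N (UU C)) (fun z x => mem_mm) (fun z x => mem_mm)
    hCol
  simp only [sum_sub_distrib] at hstar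
  -- bookkeeping
  have hnC : ∀ a b, b ∈ N a → a ∈ N b → a = b := hN.anti
  set n2 : ℤ := (Fintype.card (V × V) : ℤ) with hn2
  set n1 : ℤ := ((univ.filter fun p : V × V => p.1 = p.2).card : ℤ) with hn1
  -- general statement: complementary relations
  have gen : ∀ F G : V → Finset V, (∀ a, a ∈ F a) → (∀ a, a ∈ G a) →
      (∀ a b, a ≠ b → (a ∈ F b ↔ b ∉ G a)) →
      ∑ b, ((F b).card : ℤ) + ∑ a, ((G a).card : ℤ) = n2 + n1 := by
    intro F G hF1 hG1 hFG
    rw [sum_card_eq_filter F, sum_card_eq_filter G]
    have e1 : (univ.filter fun p : V × V => p.2 ∈ F p.1).card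
        = (univ.filter fun p : V × V => p.1 ∈ F p.2).card := by
      apply card_bij (fun p _ => (p.2, p.1))
      · intro p hp
        simpa using hp
      · intro p _ q _ h
        simp only [Prod.mk.injEq] at h
        exact Prod.ext h.2 h.1
      · intro p hp
        refine ⟨(p.2, p.1), ?_, rfl⟩
        simpa using hp
    rw [e1]
    have e2 := card_union_add_card_inter (univ.filter fun p : V × V => p.1 ∈ F p.2)
      (univ.filter fun p : V × V => p.2 ∈ G p.1)
    have e3 : (univ.filter fun p : V × V => p.1 ∈ F p.2) ∪ (univ.filter fun p : V × V => p.2 ∈ G p.1)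
        = univ := by
      ext ⟨a, b⟩
      simp only [mem_union, mem_filter, mem_univ, true_and, iff_true]
      by_cases h : a = b
      · subst h
        exact Or.inl (hF1 a)
      · by_cases h2 : b ∈ G a
        · exact Or.inr h2
        · exact Or.inl ((hFG a b h).2 h2)
    have e4 : (univ.filter fun p : V × V => p.1 ∈ F p.2) ∩ (univ.filter fun p : V × V => p.2 ∈ G p.1)
        = univ.filter fun p : V × V => p.1 = p.2 := by
      ext ⟨a, b⟩
      simp only [mem_inter, mem_filter, mem_univ, true_and]
      constructor
      · rintro ⟨h1, h2⟩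
        by_contra h
        exact (hFG a b h).1 h1 h2
      · rintro rfl
        exact ⟨hF1 a, hG1 a⟩
    rw [e3, e4] at e2
    rw [hn2, hn1, ← card_univ]
    exact_mod_cast e2.symm
  have gen' : ∀ F G : V → Finset V,
      (∀ a b, a ∈ F b → b ∈ G a → a = b) →
      ∑ b, ((F b).card : ℤ) + ∑ a, ((G a).card : ℤ) ≤ n2 + n1 := by
    intro F G hFG
    rw [sum_card_eq_filter F, sum_card_eq_filter G]
    have e1 : (univ.filter fun p : V × V => p.2 ∈ F p.1).card
        = (univ.filter fun p : V × V => p.1 ∈ F p.2).card := by
      apply card_bij (fun p _ => (p.2, p.1))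
      · intro p hp
        simpa using hp
      · intro p _ q _ h
        simp only [Prod.mk.injEq] at h
        exact Prod.ext h.2 h.1
      · intro p hp
        refine ⟨(p.2, p.1), ?_, rfl⟩
        simpa using hp
    rw [e1]
    have e2 := card_union_add_card_inter (univ.filter fun p : V × V => p.1 ∈ F p.2)
      (univ.filter fun p : V × V => p.2 ∈ G p.1)
    have e3 : ((univ.filter fun p : V × V => p.1 ∈ F p.2) ∪
        (univ.filter fun p : V × V => p.2 ∈ G p.1)).card ≤ Fintype.card (V × V) := by
      rw [← card_univ]
      exact card_le_univ _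
    have e4 : ((univ.filter fun p : V × V => p.1 ∈ F p.2) ∩
        (univ.filter fun p : V × V => p.2 ∈ G p.1)).card
        ≤ (univ.filter fun p : V × V => p.1 = p.2).card := by
      apply card_le_card
      rintro ⟨a, b⟩ h
      simp only [mem_inter, mem_filter, mem_univ, true_and] at h ⊢
      exact hFG a b h.1 h.2
    rw [hn2, hn1]
    omega
  have hNB : ∀ a b, b ∈ N a → b ∈ B a := fun a b h => hF.hB a h
  have hNC : ∀ a b, b ∈ N a → b ∈ C a := fun a b h => hF.hC a h
  have hcc : ∀ b, b ∈ mm N C b := fun b => mem_mm.2 fun a ha => hNC a b ha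
  have hMM : ∀ b, b ∈ mm N (UU C) b := fun b => mem_mm.2 fun a ha => hBU a (hNB a b ha)
  have g1 : ∑ b, ((mm N C b).card : ℤ) + ∑ a, ((NS N (UU C a)).card : ℤ) = n2 + n1 := by
    apply gen
    · exact hcc
    · intro a
      exact mem_NS.2 ⟨a, mem_UU.2 (Or.inl rfl), hN.refl a⟩
    · intro a b hab
      rw [mem_mm, mem_NS]
      constructor
      · rintro h ⟨x, hx, hbx⟩
        rcases mem_UU.1 hx with rfl | hx
        · -- `x = a`, `b ∈ N a`
          have h1 := h b (hN.refl b)
          exact hab (hF.hBC x b (hNB x b hbx) h1)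
        · exact hx (h x hbx)
      · intro h x hx
        by_contra hcon
        exact h ⟨x, mem_UU.2 (Or.inr hcon), hx⟩
  have g2 : ∑ b, ((C b).card : ℤ) + ∑ a, ((UU C a).card : ℤ) = n2 + n1 := by
    apply gen
    · exact fun b => hNC b b (hN.refl b)
    · exact fun a => mem_UU.2 (Or.inl rfl)
    · intro a b hab
      rw [mem_UU]
      constructor
      · rintro h (h1 | h1)
        · exact hab h1.symm
        · exact h1 h
      · intro h
        by_contra hcon
        exact h (Or.inr hcon)
  have g3 : ∑ b, ((NS N (C b)).card : ℤ) + ∑ z, ((mm N (UU C) z).card : ℤ) = n2 + n1 := by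
    apply gen
    · intro b
      exact subset_NS hN.refl _ (hNC b b (hN.refl b))
    · exact hMM
    · intro z b hzb
      rw [mem_NS, mem_mm]
      constructor
      · rintro ⟨a, ha, hza⟩ h
        rcases mem_UU.1 (h a hza) with rfl | h1
        · -- `b = a`, `z ∈ N b`
          rcases mem_UU.1 (h z (hN.refl z)) with h2 | h2
          · exact hzb h2.symm
          · exact h2 (hNC b z hza)
        · exact h1 ha
      · intro h
        by_contra hcon
        apply h
        intro a ha
        rw [mem_UU]
        right
        intro hab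
        exact hcon ⟨a, hab, ha⟩
  have g4 : ∑ b, ((NS N (mm N C b)).card : ℤ) + ∑ z, ((NS N (mm N (UU C) z)).card : ℤ)
      ≤ n2 + n1 := by
    apply gen'
    intro z b h1 h2
    rw [mem_NS] at h1 h2
    obtain ⟨a, ha, hza⟩ := h1
    obtain ⟨y, hy, hby⟩ := h2
    rw [mem_mm] at ha hy
    have h3 : a ∈ C y := ha y hby
    have h4 : y = a := by
      rcases mem_UU.1 (hy a hza) with h | h
      · exact h
      · exact absurd h3 h
    subst h4
    have h5 : y = z := by
      rcases mem_UU.1 (hy z (hN.refl z)) with h | h
      · exact h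
      · exact absurd (hNC y z hza) h
    subst h5
    exact hF.hBC y b (hNB y b hby) (ha b (hN.refl b))
  unfold EE
  unfold hh at hstar ⊢
  simp only [sum_sub_distrib] at hstar ⊢
  linarith

/-- The improved pair is feasible. -/
theorem feas_improved (N : V → Finset V) (hN : IsOr N) (B C : V → Finset V) (hF : Feas N B C) :
    Feas N (fun a => NS N (mm N B a)) (fun b => NS N (mm N C b)) := by
  refine ⟨?_, ?_, ?_⟩
  · intro a x hx
    exact mem_NS.2 ⟨a, mem_mm.2 fun s hs => hF.hB s hs, hx⟩
  · intro a x hx
    exact mem_NS.2 ⟨a, mem_mm.2 fun s hs => hF.hC s hs, hx⟩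
  · intro a b h1 h2
    rw [mem_NS] at h1 h2
    obtain ⟨x, hx, hbx⟩ := h1
    obtain ⟨y, hy, hay⟩ := h2
    rw [mem_mm] at hx hy
    have h3 : x ∈ B y := hx y hay
    have h4 : y ∈ C x := hy x hbx
    have h5 : y = x := hF.hBC y x h3 h4
    subst h5
    have h6 : a = y := hF.hBC a y (hx a (hN.refl a)) (hF.hC y hay)
    have h7 : y = b := hF.hBC y b (hF.hB y hbx) (hy b (hN.refl b))
    rw [h6, h7]

/-- There is no counterexample. -/
theorem no_CE [Nonempty V] (N₀ : V → Finset V) : ¬ IsCE N₀ := by
  classical
  intro hN₀
  -- a counterexample with the fewest arcs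
  obtain ⟨N, hN, hmin⟩ : ∃ N : V → Finset V, IsCE N ∧
      ∀ N' : V → Finset V, IsCE N' → ∑ v, (N v).card ≤ ∑ v, (N' v).card := by
    obtain ⟨N, h1, h2⟩ := exists_min_image (univ.filter fun N : V → Finset V => IsCE N)
      (fun N => ∑ v, (N v).card) ⟨N₀, by simpa using hN₀⟩
    refine ⟨N, by simpa using h1, fun N' hN' => h2 N' (by simpa using hN')⟩
  have hO : IsOr N := hN.toIsOr
  -- the optimal outer pair
  have hbase : Feas N N N := ⟨fun _ => Subset.refl _, fun _ => Subset.refl _, hO.anti⟩
  obtain ⟨⟨B, C⟩, hF, hopt⟩ : ∃ p : (V → Finset V) × (V → Finset V), Feas N p.1 p.2 ∧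
      ∀ q : (V → Finset V) × (V → Finset V), Feas N q.1 q.2 → EE N p.1 p.2 ≤ EE N q.1 q.2 := by
    obtain ⟨p, h1, h2⟩ := exists_min_image
      (univ.filter fun p : (V → Finset V) × (V → Finset V) => Feas N p.1 p.2)
      (fun p => EE N p.1 p.2) ⟨(N, N), by simpa using hbase⟩
    refine ⟨p, by simpa using h1, fun q hq => h2 q (by simpa using hq)⟩
  simp only at hF hopt
  have hmain := main N hO B C hF (fun B' C' h => hopt (B', C') h)
  have himp := feas_improved N hO B C hF
  have hle : EE N B C ≤ EE N (fun a => NS N (mm N B a)) (fun b => NS N (mm N C b)) :=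
    hopt (_, _) himp
  -- (G) row by row
  have hG : ∀ X, hh N (NS N X) ≤ hh N X := by
    intro X
    by_cases h : NS N X = X
    · rw [h]
    · exact (strictG N hN hmin X h).le
  -- a vertex set `S`, nonempty, closed, minimal
  obtain ⟨S, hSne, hScl, hSmin⟩ : ∃ S : Finset V, S.Nonempty ∧ NS N S ⊆ S ∧
      ∀ S' : Finset V, S'.Nonempty → NS N S' ⊆ S' → S.card ≤ S'.card := by
    obtain ⟨S, h1, h2⟩ := exists_min_image
      ((univ : Finset (Finset V)).filter fun S => S.Nonempty ∧ NS N S ⊆ S)
      (fun S => S.card) ⟨univ, by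
        simp only [mem_filter, mem_univ, true_and]
        exact ⟨univ_nonempty, subset_univ _⟩⟩
    simp only [mem_filter, mem_univ, true_and] at h1 h2
    exact ⟨S, h1.1, h1.2, fun S' h3 h4 => h2 S' ⟨h3, h4⟩⟩
  have hex : ∃ b, NS N (mm N B b) ≠ mm N B b := by
    by_contra hall
    push Not at hall
    obtain ⟨a, ha⟩ := hSne
    -- `a` has an out-neighbour `b ≠ a`
    obtain ⟨b, hb, hba⟩ : ∃ b ∈ N a, b ≠ a := by
      by_contra h
      push Not at h
      have h1 : N a = {a} := by
        ext x
        rw [mem_singleton]
        exact ⟨h x, fun hx => hx ▸ hO.refl a⟩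
      have h2 := hN.ce a
      rw [h1] at h2
      simp only [card_singleton] at h2
      have h3 := card_le_card (subset_NS hO.refl ({a} : Finset V))
      rw [card_singleton] at h3
      omega
    have hbS : b ∈ S := hScl (mem_NS.2 ⟨a, ha, hb⟩)
    have hbm : b ∈ mm N B b := mem_mm.2 fun s hs => hF.hB s hs
    -- `S ⊆ mm N B b`
    have h1 : S ⊆ mm N B b := by
      have h2 : NS N (S ∩ mm N B b) ⊆ S ∩ mm N B b := by
        apply subset_inter
        · exact (NS_mono inter_subset_left).trans hScl
        · exact (NS_mono inter_subset_right).trans (hall b).subset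
      have h3 := hSmin _ ⟨b, mem_inter.2 ⟨hbS, hbm⟩⟩ h2
      have h4 : S ∩ mm N B b = S := eq_of_subset_of_card_le inter_subset_left h3
      exact inter_eq_left.1 h4
    have h5 : a ∈ mm N B b := h1 ha
    -- contradiction: `a → b`
    have h6 : a ∈ B b := mem_mm.1 h5 b (hO.refl b)
    have h7 : b ∈ C a := hF.hC a hb
    exact hba (hF.hBC b a h6 h7)
  have hstrict : ∑ a, hh N (NS N (mm N B a)) < ∑ a, hh N (mm N B a) := by
    obtain ⟨b, hb⟩ := hex
    exact sum_lt_sum (fun a _ => hG _) ⟨b, mem_univ _, strictG N hN hmin _ hb⟩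
  have hweak : ∑ a, hh N (NS N (mm N C a)) ≤ ∑ a, hh N (mm N C a) :=
    sum_le_sum fun a _ => hG _
  unfold EE at hle hmain
  have hle' : ∑ a, hh N (B a) + ∑ b, hh N (C b)
      ≤ ∑ a, hh N (NS N (mm N B a)) + ∑ b, hh N (NS N (mm N C b)) := hle
  linarith

end Vale.Agent.P038.H422
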